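import Vale.Agent.P144U.Defs
import Vale.Agent.P144E.An1.Hol
import Vale.Agent.P144E.An2.Dec

/-!
Decay and solvability with constants that do not depend on the angles.
-/

namespace Vale.Agent.P144Z

open Finset Matrix HomDec An2

namespace UD

variable {M : ℕ} [NeZero M]

/-- There is an outer face on every contour. -/
theorem contour {I : Finset (Tor M)} {r : ℕ} (h : Esc I r) {b : Tor M} (hb : b ∉ I) {s : ℕ}
    (hs : s ≤ r) : ∃ f, f ∉ I ∧ tdist f b = s := by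
  obtain ⟨g, g1, p⟩ := h b hb
  have g2 : s ≤ tdist g b := hs.trans g1
  clear g1
  induction p with
  | refl =>
    rw [tdist_self] at g2
    exact ⟨b, hb, by rw [tdist_self]; omega⟩
  | @tail u w _ k ih =>
    by_cases a : s ≤ tdist u b
    · exact ih a
    · refine ⟨w, k.2.1, ?_⟩
      have a1 := tdist_triangle w u b
      have a2 : tdist w u ≤ 1 := by
        obtain ⟨i, e | e⟩ := k.2.2
        · rw [e]
          exact tdist_uv u i
        · rw [e, tdist_comm]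
          exact tdist_uv w i
      omega

/-- The decay in a window where the outer faces are connected. -/
theorem decay (hS : HolU) (N : ℕ) : ∃ C β : ℝ, 1 ≤ C ∧ 0 < β ∧ β ≤ 1 / 2 ∧
    ∀ (M : ℕ) [NeZero M] (R : Reg M) (B : Gauge M) (r : ℕ) (b : Tor M), IsSign B → Esc R.In r →
    (∀ f, f ∉ R.In → ∃ x, tdist x f ≤ N ∧ ∀ g, tdist g x ≤ 4 → g ∉ R.In) →
    b ∉ R.In → ∀ s s₁ ρ : ℕ, 8 ≤ s → 6 * s ≤ s₁ → s₁ + 2 ≤ ρ → ConnB R.In b (s₁ + 2) ρ → ρ ≤ r →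
    2 * ρ + 9 ≤ M → Flat B b (ρ + 2) → ∀ φ, Hom (R.pw * B) b (ρ + 2) φ →
      l2sq (ball b s) φ ≤ C * ((s : ℝ) / s₁ * (9 * (s / s₁)) ^ β) * l2sq (ball b (s₁ + 1)) φ := by
  obtain ⟨C₁, hC₁, H₁⟩ := exists_pair
  obtain ⟨C₂, hC₂, H₂⟩ := chi_cmp
  obtain ⟨C₃, hC₃, H₃⟩ := pair_sup
  obtain ⟨C₄, hC₄, H₄⟩ := l2_of_sup C₁ (by linarith)
  obtain ⟨C₅, β, hC₅, hβ, hβ', H₅⟩ := hS N
  have h23 : 1 ≤ C₃ * C₂ := one_le_mul_of_one_le_of_one_le hC₃ hC₂
  have h45 : 1 ≤ C₄ * C₅ := one_le_mul_of_one_le_of_one_le hC₄ hC₅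
  refine ⟨2 * (C₄ * C₅ * (C₃ * C₂)), β, by nlinarith, hβ, hβ', ?_⟩
  intro M _ R B r b hB hE hT hb s s₁ ρ h8 h6 hρ hc hr hM hF φ hφ
  obtain ⟨u, w, hp, he, hl⟩ := H₁ M R B hB b s₁ ρ hρ hM hF hc φ hφ
  set A := l2sq (ball b (s₁ + 1)) φ with hA
  have hA0 : 0 ≤ A := l2sq_nonneg _ _
  have s0 : (8 : ℝ) ≤ s := by exact_mod_cast h8
  have s1 : (6 : ℝ) * s ≤ s₁ := by exact_mod_cast h6
  have hpos : (0 : ℝ) < s₁ := by linarith
  have hmass : ∑ x ∈ box s₁, ∑ k, (u x - w (x - cn k)) ≤ C₂ * A := by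
    rw [sum_congr rfl fun x hx => sum_congr rfl fun k _ => he x k (mem_box.1 hx)]
    refine (sum_box_le R b (by omega) (fun y k => chi φ y k ^ 2) fun _ _ => sq_nonneg _).trans ?_
    rw [hA, l2sq, mul_sum]
    exact sum_le_sum fun y _ => (H₂ M φ y).2
  have hsup : ∀ v, 2 * zd v 0 ≤ s₁ →
      |u v| * s₁ ≤ C₃ * (C₂ * A) ∧ |w v| * s₁ ≤ C₃ * (C₂ * A) := fun v hv => by
    refine H₃ s₁ u w _ _ hp (by omega) (fun t _ h2 => ?_) v hv _ hmass
    obtain ⟨f, hf, hf'⟩ := contour hE hb (s := t) (by omega)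
    obtain ⟨x, hx, rfl⟩ := exists_fc R b f
    exact ⟨x, 0, hx.trans hf', by rw [cn_zero, sub_zero]; exact out_of hf⟩
  have h1 := H₅ (s₁ / 2) u w _ _ (pair_mono hp (Nat.div_le_self _ _)) (C₃ * (C₂ * A) / s₁)
    (fun t ht => by
      obtain ⟨f, hf, hf'⟩ := contour hE hb (s := t) (by omega)
      obtain ⟨y, hy, hy'⟩ := hT f hf
      obtain ⟨x, hx, rfl⟩ := exists_fc R b y
      have a3 := tdist_triangle f (fc R b x) b
      have a4 := tdist_triangle (fc R b x) f b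
      have a5 := tdist_comm f (fc R b x)
      refine ⟨x, by omega, by omega, fun v hv => out_of_sq fun g hg => hy' g ?_⟩
      have a1 := tdist_triangle g (fc R b v) (fc R b x)
      have a2 := tdist_fc R b v x
      omega)
    (fun x hx => by
      rw [le_div_iff₀ hpos, le_div_iff₀ hpos]
      exact hsup x (by omega)) (2 * s + 3) (by omega)
  have h2 := H₄ M R b φ u w s s₁ _ hp (by omega) hl fun v hv => (h1 v hv (by omega)).1
  have t1 : (s₁ : ℝ) ≤ 3 * (s₁ / 2 : ℕ) := by exact_mod_cast (by omega : s₁ ≤ 3 * (s₁ / 2))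
  have t2 : ((2 * s + 3 : ℕ) : ℝ) / (s₁ / 2 : ℕ) ≤ 9 * (s / s₁) := by
    rw [← mul_div_assoc, div_le_div_iff₀ (by linarith) hpos]
    push_cast
    nlinarith
  have t3 := Real.rpow_le_rpow (by positivity) t2 hβ.le
  have t4 : 0 ≤ (9 * ((s : ℝ) / s₁)) ^ β := by positivity
  refine h2.trans ?_
  calc _ ≤ C₄ * (2 * s) * (C₅ * (C₃ * (C₂ * A) / s₁) * (9 * ((s : ℝ) / s₁)) ^ β) := by
        gcongr
        linarith
    _ = _ := by ring

/-- The mass is at most linear in the radius. -/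
theorem lin (hT : ThinU) : ∃ C : ℝ, 1 ≤ C ∧ ∀ (M : ℕ) [NeZero M] (R : Reg M) (B : Gauge M),
    IsSign B → ∀ (z : Tor M) (s ρ r : ℕ), 1 ≤ s → s ≤ ρ → 2 * ρ + 9 ≤ M → Flat B z ρ →
    Esc R.In r → 2 * ρ ≤ r → ∀ φ, Hom (R.pw * B) z ρ φ →
      l2sq (ball z s) φ / s ≤ C * (l2sq (ball z ρ) φ / ρ) := by
  obtain ⟨C, hC, H⟩ := hT
  refine ⟨3 * C + 60, by linarith, fun M _ R B hB z s ρ r h1 h2 hM hF hE hr φ hφ => ?_⟩
  have s0 : (1 : ℝ) ≤ s := by exact_mod_cast h1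
  have s1 : (s : ℝ) ≤ ρ := by exact_mod_cast h2
  have n1 := l2sq_nonneg (ball z ρ) φ
  have n2 : 0 ≤ l2sq (ball z ρ) φ * s := by positivity
  rw [← mul_div_assoc, div_le_div_iff₀ (by linarith) (by linarith)]
  by_cases h : 60 * s ≤ ρ
  · have k := H M R B hB z s ρ r 3 h1 h hM hF hE hr (by norm_num) (by
      have a : (R.In.filter fun x => tdist x z ≤ ρ).card ≤ (2 * ρ + 1) ^ 2 :=
        (card_le_card fun x hx => G.mem_ball.2 (mem_filter.1 hx).2).trans (card_ball_le z ρ)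
      have a' : ((R.In.filter fun x => tdist x z ≤ ρ).card : ℝ) ≤ (2 * ρ + 1) ^ 2 := by
        exact_mod_cast a
      nlinarith) φ hφ
    nlinarith
  · have k : (ρ : ℝ) ≤ 60 * s := by exact_mod_cast (by omega : ρ ≤ 60 * s)
    have k1 := mul_le_mul (l2sq_mono z h2 φ) k (by linarith) n1
    nlinarith

theorem exists_K {ε β : ℝ} (hε : 0 < ε) (hβ : 0 < β) :
    ∃ K : ℕ, 60 ≤ K ∧ 1 ≤ ε ^ 2 * K ∧ (18 / (K : ℝ)) ^ β ≤ ε := by
  have e0 : 0 < ε ^ β⁻¹ := Real.rpow_pos_of_pos hε _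
  obtain ⟨K, hK⟩ := exists_nat_ge (max 60 (max (1 / ε ^ 2) (18 / ε ^ β⁻¹)))
  have k1 : (60 : ℝ) ≤ K := (le_max_left _ _).trans hK
  have k2 := (div_le_iff₀ (by positivity)).1 (((le_max_left _ _).trans (le_max_right _ _)).trans hK)
  have k3 := (div_le_iff₀ e0).1 (((le_max_right _ _).trans (le_max_right _ _)).trans hK)
  refine ⟨K, by exact_mod_cast k1, by linarith, ?_⟩
  refine le_trans (Real.rpow_le_rpow (by positivity) ?_ hβ.le)
    (Real.rpow_inv_rpow hε.le hβ.ne').le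
  rw [div_le_iff₀ (by linarith)]
  linarith

/-- The gain in a window. -/
theorem win (hS : HolU) (hT : ThinU) (N : ℕ) {η : ℝ} (hη : 0 < η) : ∃ K ≥ 1,
    ∀ (K' M : ℕ) [NeZero M] (R : Reg M) (B : Gauge M) (r : ℕ) (b : Tor M), IsSign B →
    Uni R.In N K K' r → b ∉ R.In → ∀ s ρ : ℕ, 8 ≤ s → N * (K * s) + 2 ≤ ρ → 2 * ρ ≤ r →
    2 * ρ + 9 ≤ M → Flat B b ρ → (ConnB R.In b (K * s) (N * (K * s)) ∨
      K * (R.In.filter fun x => tdist x b ≤ K * s).card ≤ (K * s) ^ 2) →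
    ∀ φ, Hom (R.pw * B) b ρ φ →
      l2sq (ball b s) φ / s ≤ η * (l2sq (ball b (K * s)) φ / (K * s : ℕ)) := by
  obtain ⟨C, β, hC, hβ, -, H⟩ := decay hS N
  obtain ⟨C', hC', H'⟩ := hT
  obtain ⟨ε, hε, e1, e2⟩ : ∃ ε : ℝ, 0 < ε ∧ 2 * C * ε ≤ η ∧ C' * ε ≤ η := by
    have h0 : 0 < η / (2 * C + C') := by positivity
    have h1 : (2 * C + C') * (η / (2 * C + C')) = η := by field_simp
    exact ⟨_, h0, by nlinarith, by nlinarith⟩
  obtain ⟨K, K1, K2, K3⟩ := exists_K hε hβ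
  refine ⟨K, by omega, fun K' M _ R B r b hB hU hb s ρ h8 hρ hr hM hF hw φ hφ => ?_⟩
  have a1 : K * s ≤ N * (K * s) := Nat.le_mul_of_pos_left _ hU.one
  have a2 : 60 * s ≤ K * s := Nat.mul_le_mul_right _ K1
  have s0 : (8 : ℝ) ≤ s := by exact_mod_cast h8
  have k0 : (60 : ℝ) ≤ K := by exact_mod_cast K1
  have p0 : (0 : ℝ) < (K * s : ℕ) := by exact_mod_cast (by omega : 0 < K * s)
  have n1 := l2sq_nonneg (ball b (K * s)) φ
  rw [← mul_div_assoc, div_le_div_iff₀ (by linarith) p0]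
  rcases hw with hw | hw
  · obtain ⟨s₁, e⟩ : ∃ s₁, K * s = s₁ + 2 := ⟨K * s - 2, by omega⟩
    have k := H M R B r b hB hU.esc hU.thk hb s s₁ (N * (K * s)) h8 (by omega) (by omega)
      (by rwa [← e]) (by omega) (by omega) (fun f hf => hF f (by omega)) φ
      fun t ht => hφ t (by omega)
    have e' : (K : ℝ) * s = s₁ + 2 := by exact_mod_cast e
    have q0 : (0 : ℝ) < s₁ := by nlinarith
    have u2 : (s : ℝ) / s₁ ≤ 2 / K := by
      rw [div_le_div_iff₀ q0 (by linarith)]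
      nlinarith
    have u3 : (9 * ((s : ℝ) / s₁)) ^ β ≤ ε := by
      refine le_trans (Real.rpow_le_rpow (by positivity) ?_ hβ.le) K3
      rw [show (18 : ℝ) / K = 9 * (2 / K) by ring]
      linarith
    have u4 := l2sq_mono b (by omega : s₁ + 1 ≤ K * s) φ
    have u5 := l2sq_nonneg (ball b (s₁ + 1)) φ
    have u6 : l2sq (ball b s) φ ≤ C * (2 / K * ε) * l2sq (ball b (K * s)) φ :=
      k.trans (by gcongr)
    calc _ ≤ C * (2 / K * ε) * l2sq (ball b (K * s)) φ * (K * s : ℕ) := by gcongr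
      _ = 2 * C * ε * l2sq (ball b (K * s)) φ * s := by push_cast; field_simp
      _ ≤ _ := by gcongr
  · have k := H' M R B hB b s (K * s) r ε (by omega) a2 (by omega) (fun f hf => hF f (by omega))
      hU.esc (by omega) hε.le (by
        have a : (K : ℝ) * (R.In.filter fun x => tdist x b ≤ K * s).card ≤
            ((K * s : ℕ) : ℝ) ^ 2 := by exact_mod_cast hw
        have a' := mul_le_mul_of_nonneg_left a (sq_nonneg ε)
        have a'' := mul_le_mul_of_nonneg_right K2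
          (Nat.cast_nonneg (α := ℝ) (R.In.filter fun x => tdist x b ≤ K * s).card)
        linarith) φ fun t ht => hφ t (by omega)
    calc _ ≤ C' * ε * s * l2sq (ball b (K * s)) φ := k
      _ ≤ η * s * l2sq (ball b (K * s)) φ := by gcongr
      _ = _ := by ring

/-- The iteration. -/
theorem iter {L : ℕ} (hL : 2 ≤ L) : ∃ β : ℝ, 0 < β ∧ β ≤ 1 / 2 ∧ ∀ (g : ℕ → ℝ) (C : ℝ) (ρ : ℕ),
    0 ≤ C → 0 ≤ g ρ → (∀ s, 8 ≤ s → s ≤ ρ → g s ≤ C * g ρ) →
    (∀ s, 8 ≤ s → L * s ≤ ρ → g s ≤ 1 / 2 * g (L * s)) →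
    ∀ s, 8 ≤ s → s ≤ ρ → g s ≤ 2 * C * ((s : ℝ) / ρ) ^ β * g ρ := by
  have hL' : (2 : ℝ) ≤ L := by exact_mod_cast hL
  obtain ⟨β, b0, b1, hβ⟩ := An1.exists_exp (θ := 1 / 2) (K := L) (by norm_num) (by norm_num)
    (by linarith)
  refine ⟨β, b0, b1, fun g C ρ hC h0 h1 h2 => ?_⟩
  have key : ∀ k : ℕ, ∀ s, 8 ≤ s → s ≤ ρ → ρ < L ^ (k + 1) * s →
      ∃ j : ℕ, ρ < L ^ (j + 1) * s ∧ g s ≤ (1 / 2) ^ j * (C * g ρ) := by
    intro k
    induction k with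
    | zero => exact fun s a1 a2 a3 => ⟨0, a3, by simpa using h1 s a1 a2⟩
    | succ k ih =>
      intro s a1 a2 a3
      by_cases a4 : L * s ≤ ρ
      · obtain ⟨j, j1, j2⟩ := ih (L * s) (a1.trans (Nat.le_mul_of_pos_left _ (by omega))) a4
          (by rwa [← mul_assoc, ← pow_succ])
        refine ⟨j + 1, by rwa [← mul_assoc, ← pow_succ] at j1, ?_⟩
        rw [pow_succ]
        linarith [h2 s a1 a4]
      · exact ⟨0, by simpa using a4, by simpa using h1 s a1 a2⟩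
  intro s a1 a2
  obtain ⟨j, j1, j2⟩ := key ρ s a1 a2 (lt_of_lt_of_le ((Nat.lt_succ_self ρ).trans
    (Nat.lt_pow_self (by omega))) (Nat.le_mul_of_pos_right _ (by omega)))
  have hρ : (0 : ℝ) < ρ := by exact_mod_cast (by omega : 0 < ρ)
  have h3 : (L : ℝ)⁻¹ ^ (j + 1) ≤ (s : ℝ) / ρ := by
    have h4 : (ρ : ℝ) ≤ (L : ℝ) ^ (j + 1) * s := by exact_mod_cast j1.le
    rw [inv_pow, inv_eq_one_div, div_le_div_iff₀ (by positivity) hρ]
    linarith
  have h4 := mul_le_mul_of_nonneg_right (hβ _ _ h3) (mul_nonneg hC h0)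
  rw [pow_succ] at h4
  linarith

theorem hom (hS : HolU) (hT : ThinU) (N : ℕ) : ∃ K ≥ 1, ∀ K' : ℕ, ∃ c β : ℝ, 1 ≤ c ∧ 0 < β ∧
    β ≤ 1 / 2 ∧ ∀ (M : ℕ) [NeZero M] (R : Reg M) (B : Gauge M) (r : ℕ) (b : Tor M), IsSign B →
    Uni R.In N K K' r → 4 * r ≤ M → b ∉ R.In → ∀ ρ : ℕ, 2 * (ρ + 1) ≤ r → Flat B b (2 * ρ) →
      HomDecH (R.pw * B) b 8 ρ c β := by
  obtain ⟨C, hC, H⟩ := lin hT
  obtain ⟨K, K1, H'⟩ := win hS hT N (η := 1 / (2 * C ^ 2)) (by positivity)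
  refine ⟨K, K1, fun K' => ?_⟩
  obtain ⟨β, b0, b1, hβ⟩ := iter (L := K' + 2) (by omega)
  refine ⟨2 * C, β, by linarith, b0, b1, fun M _ R B r b hB hU hM hb ρ hr hF s ρ' h8 hs hρ φ hφ => ?_⟩
  have hl : ∀ s t : ℕ, 1 ≤ s → s ≤ t → t ≤ ρ' →
      l2sq (ball b s) φ / s ≤ C * (l2sq (ball b t) φ / t) := fun s t a1 a2 a3 =>
    H M R B hB b s t r a1 a2 (by omega) (fun f hf => hF f (by omega)) hU.esc (by omega) φ
      fun x hx => hφ x (by omega)
  have n1 := l2sq_nonneg (ball b ρ') φ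
  have k := hβ (fun t => l2sq (ball b t) φ / t) C ρ' (by linarith) (by positivity)
    (fun t a1 a2 => hl t ρ' (by omega) a2 le_rfl) (fun t a1 a2 => by
      have a3 : K' * t + 2 * t ≤ ρ' := by rwa [← add_mul]
      obtain ⟨s', c1, c2, c3⟩ := hU.win b hb t (by omega) (by omega)
      have c4 : K * s' ≤ N * (K * s') := Nat.le_mul_of_pos_left _ hU.one
      have c5 : s' ≤ K * s' := Nat.le_mul_of_pos_left _ K1
      have d1 := hl t s' (by omega) c1 (by omega)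
      have d2 := H' K' M R B r b hB hU hb s' ρ' (by omega) (by omega) (by omega) (by omega)
        (fun f hf => hF f (by omega)) c3 φ hφ
      have d3 := hl (K * s') ((K' + 2) * t) (by omega) (by rw [add_mul]; omega) a2
      calc _ ≤ C * (1 / (2 * C ^ 2) *
            (C * (l2sq (ball b ((K' + 2) * t)) φ / ((K' + 2) * t : ℕ)))) :=
            d1.trans (mul_le_mul_of_nonneg_left (d2.trans
              (mul_le_mul_of_nonneg_left d3 (by positivity))) (by linarith))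
        _ = _ := by field_simp) s h8 hs
  have s0 : (0 : ℝ) < s := by exact_mod_cast (by omega : 0 < s)
  have p0 : (0 : ℝ) < ρ' := by exact_mod_cast (by omega : 0 < ρ')
  have q0 : 0 < (s : ℝ) / ρ' := by positivity
  rw [div_le_iff₀ s0] at k
  rw [Real.rpow_add q0, Real.rpow_one]
  calc _ ≤ 2 * C * ((s : ℝ) / ρ') ^ β * (l2sq (ball b ρ') φ / ρ') * s := k
    _ = 2 * C * 1 * ((s : ℝ) / ρ' * ((s : ℝ) / ρ') ^ β) * l2sq (ball b ρ') φ := by field_simp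
    _ ≤ 2 * C * (2 * C) * ((s : ℝ) / ρ' * ((s : ℝ) / ρ') ^ β) * l2sq (ball b ρ') φ := by
        gcongr
        linarith
    _ = _ := by ring

theorem solv (N : ℕ) : ∃ c : ℝ, 1 ≤ c ∧ ∀ (M : ℕ) [NeZero M] (R : Reg M) (B : Gauge M) (r : ℕ)
    (b : Tor M), IsSign B → TrB R.In b r N → 4 * r ≤ M → ∀ ρ : ℕ, 2 * (ρ + 1) ≤ r →
    Flat B b (2 * ρ) → Solv (R.pw * B) b 8 ρ c := by
  obtain ⟨C, hC, hco⟩ := B3b.coercive_of ext_est rellich
  refine ⟨C * (N + 1), one_le_mul_of_one_le_of_one_le hC (by linarith [Nat.cast_nonneg (α := ℝ) N]),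
    fun M _ R B r b hB hR hM ρ hr hF ρ' h1 h2 σ => ?_⟩
  have n1 := l2sq_nonneg (ball b ρ') σ
  obtain ⟨w, hw, hw'⟩ := exists_solve (R.pw * B) (ball b ρ') σ
    (c := (C * (N + 1)) ^ 2 * (ρ' : ℝ) ^ 2 * l2sq (ball b ρ') σ) (by positivity)
    fun ζ hζ => by
      have k1 := hco M R B hB b ρ' N h1 (by omega) (fun f hf => hF f (by omega))
        (hR.mono' (by omega) le_rfl) ζ
        fun t ht => hζ t fun h => by have := G.mem_ball.1 h; omega
      rw [dotProduct_comm]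
      refine (E5.dot_sq_le hζ σ).trans ((mul_le_mul_of_nonneg_right k1 n1).trans ?_)
      exact le_of_eq (by ring)
  exact ⟨w, hw, fun t ht => hw' t (G.mem_ball.2 ht)⟩

end UD

theorem decU_of (hS : HolU) (hT : ThinU) : DecU := by
  intro N
  obtain ⟨K, K1, h⟩ := UD.hom hS hT N
  refine ⟨K, K1, fun K' => ?_⟩
  obtain ⟨c, β, hc, hβ, hβ', h1⟩ := h K'
  obtain ⟨c', hc', h2⟩ := UD.solv N
  refine ⟨c + c', β, by linarith, hβ, hβ', 2,
    fun M _ R B r b hB hR hM hb ρ hr hF => ⟨fun s ρ' a1 a2 a3 φ hφ => ?_, fun ρ' a1 a2 σ => ?_⟩⟩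
  · have := l2sq_nonneg (ball b ρ') φ
    refine (h1 M R B r b hB hR hM hb ρ hr hF s ρ' a1 a2 a3 φ hφ).trans ?_
    gcongr
    linarith
  · have := l2sq_nonneg (ball b ρ') σ
    obtain ⟨w, k1, k2⟩ := h2 M R B r b hB (hR.tr b) hM ρ hr hF ρ' a1 a2 σ
    refine ⟨w, k1.trans ?_, k2⟩
    gcongr
    linarith

end Vale.Agent.P144Z
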